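import Mathlib.Data.Finset.Card
import Mathlib.Data.Fintype.Powerset
import Mathlib.Data.Fintype.Pi
import Mathlib.Order.Lattice.Nat
import Mathlib.Algebra.BigOperators.Group.Finset.Basic
import Mathlib.Algebra.Order.BigOperators.Group.Finset
import Mathlib.Data.Finset.Max
import Mathlib.Tactic

/-!
# Seymour's second neighbourhood conjecture, part 1: inner cuts and outer cuts
-/

namespace Vale.Agent.P038.H616

open Finset

variable {V : Type*} [DecidableEq V]

/-- closed out-neighbourhood of a set -/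
def cl (N : V → Finset V) (X : Finset V) : Finset V := X.biUnion N

/-- `|N[X]| - |X|` -/
def c (N : V → Finset V) (X : Finset V) : ℕ := (cl N X).card - X.card

variable {N : V → Finset V}

lemma mem_cl {X : Finset V} {z : V} : z ∈ cl N X ↔ ∃ a ∈ X, z ∈ N a := mem_biUnion

lemma subset_cl (hN : ∀ a, a ∈ N a) (X : Finset V) : X ⊆ cl N X :=
  fun a ha => mem_cl.2 ⟨a, ha, hN a⟩

lemma cl_mono {X Y : Finset V} (h : X ⊆ Y) : cl N X ⊆ cl N Y := by
  intro z hz
  obtain ⟨a, ha, hz⟩ := mem_cl.1 hz
  exact mem_cl.2 ⟨a, h ha, hz⟩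

lemma cl_union (X Y : Finset V) : cl N (X ∪ Y) = cl N X ∪ cl N Y := by
  ext z
  simp only [mem_cl, mem_union]
  constructor
  · rintro ⟨a, ha | ha, hz⟩
    · exact Or.inl ⟨a, ha, hz⟩
    · exact Or.inr ⟨a, ha, hz⟩
  · rintro (⟨a, ha, hz⟩ | ⟨a, ha, hz⟩)
    · exact ⟨a, Or.inl ha, hz⟩
    · exact ⟨a, Or.inr ha, hz⟩

lemma c_add (hN : ∀ a, a ∈ N a) (X : Finset V) : c N X + X.card = (cl N X).card :=
  Nat.sub_add_cancel (card_le_card (subset_cl hN X))

lemma c_submod (hN : ∀ a, a ∈ N a) (X Y : Finset V) :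
    c N (X ∪ Y) + c N (X ∩ Y) ≤ c N X + c N Y := by
  have h1 : cl N (X ∪ Y) = cl N X ∪ cl N Y := cl_union X Y
  have h2 : cl N (X ∩ Y) ⊆ cl N X ∩ cl N Y :=
    subset_inter (cl_mono inter_subset_left) (cl_mono inter_subset_right)
  have h3 := card_union_add_card_inter (cl N X) (cl N Y)
  have h4 := card_union_add_card_inter X Y
  have h5 := card_le_card h2
  have e1 := c_add hN (X ∪ Y)
  have e2 := c_add hN (X ∩ Y)
  have e3 := c_add hN X
  have e4 := c_add hN Y
  rw [h1] at e1
  omega

/-- least value of `c` between `P ∪ (W ∩ Q)` and `Q` -/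
noncomputable def k (N : V → Finset V) (P Q W : Finset V) : ℕ :=
  sInf {n | ∃ Y, P ∪ (W ∩ Q) ⊆ Y ∧ Y ⊆ Q ∧ c N Y = n}

lemma k_le {P Q W Y : Finset V} (h1 : P ∪ (W ∩ Q) ⊆ Y) (h2 : Y ⊆ Q) : k N P Q W ≤ c N Y :=
  Nat.sInf_le ⟨Y, h1, h2, rfl⟩

lemma k_ex {P Q : Finset V} (W : Finset V) (hPQ : P ⊆ Q) :
    ∃ Y, P ∪ (W ∩ Q) ⊆ Y ∧ Y ⊆ Q ∧ c N Y = k N P Q W :=
  Nat.sInf_mem (s := {n | ∃ Y, P ∪ (W ∩ Q) ⊆ Y ∧ Y ⊆ Q ∧ c N Y = n})
    ⟨c N Q, Q, union_subset hPQ inter_subset_right, Subset.rfl, rfl⟩

lemma k_mono {P Q W W' : Finset V} (hPQ : P ⊆ Q) (h : W ⊆ W') : k N P Q W ≤ k N P Q W' := by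
  obtain ⟨Y, h1, h2, h3⟩ := k_ex (N := N) W' hPQ
  rw [← h3]
  exact k_le ((union_subset_union Subset.rfl (inter_subset_inter h Subset.rfl)).trans h1) h2

lemma k_univ [Fintype V] {P Q : Finset V} (hPQ : P ⊆ Q) : k N P Q univ = c N Q := by
  obtain ⟨Y, h1, h2, h3⟩ := k_ex (N := N) univ hPQ
  have : Y = Q := by
    apply Subset.antisymm h2
    intro b hb
    exact h1 (mem_union_right _ (mem_inter.2 ⟨mem_univ _, hb⟩))
  rw [← h3, this]

lemma k_same {P Q W : Finset V} {b : V} (hb : b ∈ P ∨ b ∉ Q) :
    k N P Q (insert b W) = k N P Q W := by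
  have : P ∪ (insert b W ∩ Q) = P ∪ (W ∩ Q) := by
    ext x
    simp only [mem_union, mem_inter, mem_insert]
    constructor
    · rintro (h | ⟨h | h, h'⟩)
      · exact Or.inl h
      · subst h
        rcases hb with hb | hb
        · exact Or.inl hb
        · exact absurd h' hb
      · exact Or.inr ⟨h, h'⟩
    · rintro (h | ⟨h, h'⟩)
      · exact Or.inl h
      · exact Or.inr ⟨Or.inr h, h'⟩
  unfold k
  rw [this]

lemma k_step (hN : ∀ a, a ∈ N a) {m M B U W : Finset V} {b : V} (hmM : m ⊆ M) (hBU : B ⊆ U)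
    (hmB : m ⊆ B) (hMU : M ⊆ U) (hb : b ∈ M) :
    k N B U (insert b W) + k N m M W ≤ k N m M (insert b W) + k N B U W := by
  obtain ⟨Y, h1, h2, h3⟩ := k_ex (N := N) (insert b W) hmM
  obtain ⟨Y', h1', h2', h3'⟩ := k_ex (N := N) W hBU
  have a1 : k N B U (insert b W) ≤ c N (Y ∪ Y') := by
    apply k_le
    · intro x hx
      simp only [mem_union, mem_inter, mem_insert] at hx
      rcases hx with hx | ⟨hx | hx, hx'⟩
      · exact mem_union_right _ (h1' (mem_union_left _ hx))
      · subst hx
        exact mem_union_left _ (h1 (mem_union_right _ (mem_inter.2 ⟨mem_insert_self _ _, hb⟩)))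
      · exact mem_union_right _ (h1' (mem_union_right _ (mem_inter.2 ⟨hx, hx'⟩)))
    · exact union_subset (h2.trans hMU) h2'
  have a2 : k N m M W ≤ c N (Y ∩ Y') := by
    apply k_le
    · intro x hx
      simp only [mem_union, mem_inter] at hx
      rcases hx with hx | ⟨hx, hx'⟩
      · exact mem_inter.2 ⟨h1 (mem_union_left _ hx), h1' (mem_union_left _ (hmB hx))⟩
      · exact mem_inter.2 ⟨h1 (mem_union_right _ (mem_inter.2 ⟨mem_insert_of_mem hx, hx'⟩)),
          h1' (mem_union_right _ (mem_inter.2 ⟨hx, hMU hx'⟩))⟩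
    · exact inter_subset_left.trans h2
  have := c_submod hN Y Y'
  omega

omit [DecidableEq V] in
/-- layer cake for natural numbers -/
lemma layer [Fintype V] (α γ : V → ℕ)
    (h : ∀ t, (univ.filter fun a => t < α a).card ≤ (univ.filter fun z => t < γ z).card) :
    ∑ a, α a ≤ ∑ z, γ z := by
  set T := (∑ a, α a) + ∑ z, γ z with hT
  have key : ∀ β : V → ℕ, (∀ a, β a ≤ T) →
      ∑ a, β a = ∑ t ∈ range T, (univ.filter fun a => t < β a).card := by
    intro β hβ
    simp_rw [card_filter]
    rw [sum_comm]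
    refine sum_congr rfl fun a _ => ?_
    rw [← card_filter]
    have : (range T).filter (fun t => t < β a) = range (β a) := by
      ext t
      simp only [mem_filter, mem_range]
      have := hβ a
      omega
    rw [this, card_range]
  rw [key α, key γ]
  · exact sum_le_sum fun t _ => h t
  · intro a
    have := single_le_sum (f := γ) (fun i _ => Nat.zero_le _) (mem_univ a)
    omega
  · intro a
    have := single_le_sum (f := α) (fun i _ => Nat.zero_le _) (mem_univ a)
    omega

variable [Fintype V]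

/-- dual family with the diagonal -/
def UU (C : V → Finset V) (a : V) : Finset V := univ.filter fun b => b = a ∨ a ∉ C b

/-- intersection over the closed in-neighbourhood -/
def li (N : V → Finset V) (B : V → Finset V) (z : V) : Finset V :=
  univ.filter fun b => ∀ a, z ∈ N a → b ∈ B a

lemma mem_UU {C : V → Finset V} {a b : V} : b ∈ UU C a ↔ (b = a ∨ a ∉ C b) := by
  simp [UU]

lemma mem_li {B : V → Finset V} {z b : V} : b ∈ li N B z ↔ ∀ a, z ∈ N a → b ∈ B a := by
  simp [li]

/-- the gap inequality -/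
theorem gap (hN : ∀ a, a ∈ N a) {B U : V → Finset V}
    (hBU : ∀ a, B a ⊆ U a)
    (hR : ∀ a Y, B a ⊆ Y → Y ⊆ U a → c N (B a) ≤ c N Y)
    (hC : ∀ b (S : Finset V), (∀ a ∈ S, b ∈ U a ∧ b ∉ B a) →
      S.card ≤ (univ.filter fun z => (∃ a ∈ S, z ∈ N a) ∧ b ∈ li N U z).card) :
    ∑ a, c N (U a) + ∑ z, c N (li N B z) ≤ ∑ z, c N (li N U z) + ∑ a, c N (B a) := by
  have hmM : ∀ z, li N B z ⊆ li N U z := fun z b hb =>
    mem_li.2 fun a ha => hBU a (mem_li.1 hb a ha)
  have hMU : ∀ z a, z ∈ N a → li N U z ⊆ U a := fun z a hza b hb => mem_li.1 hb a hza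
  have hmB : ∀ z a, z ∈ N a → li N B z ⊆ B a := fun z a hza b hb => mem_li.1 hb a hza
  -- base values
  have base1 : ∀ a, k N (B a) (U a) ∅ = c N (B a) := by
    intro a
    apply le_antisymm
    · exact k_le (by simp) (hBU a)
    · obtain ⟨Y, h1, h2, h3⟩ := k_ex (N := N) ∅ (hBU a)
      rw [← h3]
      exact hR a Y (subset_union_left.trans h1) h2
  have desc : ∀ z (Y : Finset V), Y ⊆ li N U z → ∀ A : Finset V, (∀ a ∈ A, z ∈ N a) →
      c N (Y.filter fun b => ∀ a ∈ A, b ∈ B a) ≤ c N Y := by
    intro z Y hY A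
    induction A using Finset.induction_on with
    | empty => intro _; simp
    | insert a A ha ih =>
      intro hA
      have ih' := ih fun x hx => hA x (mem_insert_of_mem hx)
      set Z := Y.filter fun b => ∀ a ∈ A, b ∈ B a with hZ
      have e : (Y.filter fun b => ∀ x ∈ insert a A, b ∈ B x) = Z ∩ B a := by
        ext x
        simp only [hZ, mem_filter, mem_inter, mem_insert, forall_eq_or_imp]
        tauto
      rw [e]
      have hza : z ∈ N a := hA a (mem_insert_self _ _)
      have hZU : Z ⊆ U a := (filter_subset _ _).trans (hY.trans (hMU z a hza))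
      have s := c_submod hN Z (B a)
      have r := hR a (Z ∪ B a) subset_union_right (union_subset hZU (hBU a))
      omega
  have base2 : ∀ z, k N (li N B z) (li N U z) ∅ = c N (li N B z) := by
    intro z
    apply le_antisymm
    · exact k_le (by simp) (hmM z)
    · obtain ⟨Y, h1, h2, h3⟩ := k_ex (N := N) ∅ (hmM z)
      rw [← h3]
      have := desc z Y h2 (univ.filter fun a => z ∈ N a) (by simp)
      have e : (Y.filter fun b => ∀ a ∈ (univ.filter fun a => z ∈ N a), b ∈ B a) = li N B z := by
        ext x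
        simp only [mem_filter, mem_univ, true_and, mem_li]
        constructor
        · rintro ⟨_, h⟩; exact h
        · intro h
          exact ⟨h1 (mem_union_left _ (mem_li.2 h)), h⟩
      rwa [e] at this
  have main : ∀ W : Finset V,
      ∑ a, k N (B a) (U a) W + ∑ z, k N (li N B z) (li N U z) ∅ ≤
      ∑ z, k N (li N B z) (li N U z) W + ∑ a, k N (B a) (U a) ∅ := by
    intro W
    induction W using Finset.induction_on with
    | empty => rw [add_comm]
    | insert b W hbW ih =>
      have hα : ∀ a, k N (B a) (U a) W ≤ k N (B a) (U a) (insert b W) := fun a =>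
        k_mono (hBU a) (subset_insert _ _)
      have hγ : ∀ z, k N (li N B z) (li N U z) W ≤ k N (li N B z) (li N U z) (insert b W) :=
        fun z => k_mono (hmM z) (subset_insert _ _)
      have lay := layer (fun a => k N (B a) (U a) (insert b W) - k N (B a) (U a) W)
        (fun z => k N (li N B z) (li N U z) (insert b W) - k N (li N B z) (li N U z) W) (by
          intro t
          refine (hC b (univ.filter fun a =>
            t < k N (B a) (U a) (insert b W) - k N (B a) (U a) W) ?_).trans ?_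
          · intro a ha
            rw [mem_filter] at ha
            by_contra hcon
            have : b ∈ B a ∨ b ∉ U a := by tauto
            rw [k_same this] at ha
            omega
          · apply card_le_card
            intro z hz
            simp only [mem_filter, mem_univ, true_and] at hz ⊢
            obtain ⟨⟨a, ha, hza⟩, hb⟩ := hz
            have := k_step hN (W := W) (hmM z) (hBU a) (hmB z a hza) (hMU z a hza) hb
            have := hα a
            have := hγ z
            omega)
      have s1 : ∑ a, (k N (B a) (U a) (insert b W) - k N (B a) (U a) W) +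
          ∑ a, k N (B a) (U a) W = ∑ a, k N (B a) (U a) (insert b W) := by
        rw [← sum_add_distrib]
        exact sum_congr rfl fun a _ => Nat.sub_add_cancel (hα a)
      have s2 : ∑ z, (k N (li N B z) (li N U z) (insert b W) - k N (li N B z) (li N U z) W) +
          ∑ z, k N (li N B z) (li N U z) W = ∑ z, k N (li N B z) (li N U z) (insert b W) := by
        rw [← sum_add_distrib]
        exact sum_congr rfl fun a _ => Nat.sub_add_cancel (hγ a)
      omega
  have fin := main univ
  simp only [k_univ (hBU _), k_univ (hmM _), base1, base2] at fin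
  exact fin

end Vale.Agent.P038.H616
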