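import Vale.Agent.P038.H616.Gap

/-!
# Seymour's second neighbourhood conjecture, part 2: min inner cut ≤ min outer cut
-/

namespace Vale.Agent.P038.H616

open Finset

variable {V : Type*} [DecidableEq V] [Fintype V] {N : V → Finset V}

lemma dc_le (P Q : V → Finset V) (h : ∀ a b, a ∈ P b → b ∈ Q a → a = b) :
    ∑ b, (P b).card + ∑ a, (Q a).card ≤ Fintype.card V * Fintype.card V + Fintype.card V := by
  have e1 : ∑ b, (P b).card = ∑ b, ∑ a, if a ∈ P b then 1 else 0 := by simp
  have e2 : ∑ a, (Q a).card = ∑ b, ∑ a, if b ∈ Q a then 1 else 0 := by rw [sum_comm]; simp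
  rw [e1, e2, ← sum_add_distrib]
  calc ∑ b, (∑ a, (if a ∈ P b then 1 else 0) + ∑ a, if b ∈ Q a then 1 else 0)
      ≤ ∑ b : V, ∑ a : V, (1 + if a = b then 1 else 0) := by
        refine sum_le_sum fun b _ => ?_
        rw [← sum_add_distrib]
        refine sum_le_sum fun a _ => ?_
        have := h a b
        by_cases h1 : a ∈ P b <;> by_cases h2 : b ∈ Q a <;> simp_all
    _ = _ := by simp [sum_add_distrib]; ring

lemma dc_ge (P Q : V → Finset V) (h : ∀ a b, a ∈ P b ∨ b ∈ Q a) (h' : ∀ a, a ∈ P a ∧ a ∈ Q a) :
    Fintype.card V * Fintype.card V + Fintype.card V ≤ ∑ b, (P b).card + ∑ a, (Q a).card := by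
  have e1 : ∑ b, (P b).card = ∑ b, ∑ a, if a ∈ P b then 1 else 0 := by simp
  have e2 : ∑ a, (Q a).card = ∑ b, ∑ a, if b ∈ Q a then 1 else 0 := by rw [sum_comm]; simp
  rw [e1, e2, ← sum_add_distrib]
  calc _ = ∑ b : V, ∑ a : V, (1 + if a = b then 1 else 0) := by simp [sum_add_distrib]; ring
    _ ≤ ∑ b, (∑ a, (if a ∈ P b then 1 else 0) + ∑ a, if b ∈ Q a then 1 else 0) := by
        refine sum_le_sum fun b _ => ?_
        rw [← sum_add_distrib]
        refine sum_le_sum fun a _ => ?_
        by_cases hab : a = b
        · subst hab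
          simp [(h' a).1, (h' a).2]
        · rcases h a b with h1 | h1 <;> simp [hab, h1]

lemma sum_upd (f : Finset V → ℕ) (B : V → Finset V) (a : V) (Y : Finset V) :
    ∑ x, f (Function.update B a Y x) + f (B a) = ∑ x, f (B x) + f Y := by
  rw [← Finset.add_sum_erase univ (fun x => f (Function.update B a Y x)) (mem_univ a),
    ← Finset.add_sum_erase univ (fun x => f (B x)) (mem_univ a)]
  have : ∑ x ∈ univ.erase a, f (Function.update B a Y x) = ∑ x ∈ univ.erase a, f (B x) :=
    sum_congr rfl (fun x hx => by rw [Function.update_of_ne (ne_of_mem_erase hx)])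
  rw [this]
  simp only [Function.update_self]
  omega

/-- pairs of families for the outer problem -/
def Outer (N : V → Finset V) (B C : V → Finset V) : Prop :=
  (∀ a, N a ⊆ B a) ∧ (∀ a, N a ⊆ C a) ∧ ∀ a b, b ∈ B a → a ∈ C b → a = b

/-- pairs of families for the inner problem -/
def Inner (N : V → Finset V) (X Y : V → Finset V) : Prop :=
  (∀ a, a ∈ X a) ∧ (∀ a, a ∈ Y a) ∧ ∀ a b, b ∈ cl N (X a) → a ∈ cl N (Y b) → a = b

/-- the cost of a pair -/
def cost (N : V → Finset V) (X Y : V → Finset V) : ℕ := ∑ a, c N (X a) + ∑ a, c N (Y a)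

/-- second family of the shifted pair -/
def YY (N : V → Finset V) (U : V → Finset V) (x : V) : Finset V :=
  univ.filter fun z => z = x ∨ x ∉ cl N (U z)

lemma mem_YY {U : V → Finset V} {x z : V} : z ∈ YY N U x ↔ (z = x ∨ x ∉ cl N (U z)) := by
  simp [YY]

theorem inout (hN : ∀ a, a ∈ N a) (ho : ∀ a b, b ∈ N a → a ∈ N b → a = b) :
    ∃ X Y, Inner N X Y ∧ ∀ B C, Outer N B C → cost N X Y ≤ cost N B C := by
  classical
  obtain ⟨⟨B, C⟩, hBC, hmin⟩ := Finset.exists_min_image
    (univ.filter fun p : (V → Finset V) × (V → Finset V) => Outer N p.1 p.2)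
    (fun p => cost N p.1 p.2)
    ⟨(N, N), by
      simp only [mem_filter, mem_univ, true_and]
      exact ⟨fun _ => Subset.rfl, fun _ => Subset.rfl, ho⟩⟩
  simp only [mem_filter, mem_univ, true_and, Prod.forall] at hBC hmin
  obtain ⟨hB, hC, horth⟩ := hBC
  have hBU : ∀ a, B a ⊆ UU C a := by
    intro a b hb
    rw [mem_UU]
    by_contra hcon
    push Not at hcon
    exact hcon.1 (horth a b hb hcon.2).symm
  have hR : ∀ a Y, B a ⊆ Y → Y ⊆ UU C a → c N (B a) ≤ c N Y := by
    intro a Y h1 h2
    have hout : Outer N (Function.update B a Y) C := by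
      refine ⟨?_, hC, ?_⟩
      · intro x
        by_cases hx : x = a
        · subst hx; rw [Function.update_self]; exact (hB x).trans h1
        · rw [Function.update_of_ne hx]; exact hB x
      · intro x b hb hxb
        by_cases hx : x = a
        · subst hx
          rw [Function.update_self] at hb
          rcases mem_UU.1 (h2 hb) with h | h
          · exact h.symm
          · exact absurd hxb h
        · rw [Function.update_of_ne hx] at hb
          exact horth x b hb hxb
    have h3 := hmin _ _ hout
    have h4 := sum_upd (c N) B a Y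
    unfold cost at h3
    omega
  have hCC : ∀ b (S : Finset V), (∀ a ∈ S, b ∈ UU C a ∧ b ∉ B a) →
      S.card ≤ (univ.filter fun z => (∃ a ∈ S, z ∈ N a) ∧ b ∈ li N (UU C) z).card := by
    intro b S hS
    have hout : Outer N B (Function.update C b (C b ∪ S)) := by
      refine ⟨hB, ?_, ?_⟩
      · intro x
        by_cases hx : x = b
        · subst hx; rw [Function.update_self]; exact (hC x).trans subset_union_left
        · rw [Function.update_of_ne hx]; exact hC x
      · intro a x hxa hax
        by_cases hx : x = b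
        · subst hx
          rw [Function.update_self, mem_union] at hax
          rcases hax with h | h
          · exact horth a x hxa h
          · exact absurd hxa (hS a h).2
        · rw [Function.update_of_ne hx] at hax
          exact horth a x hxa hax
    have h3 := hmin _ _ hout
    have h4 := sum_upd (c N) C b (C b ∪ S)
    unfold cost at h3
    have h5 : c N (C b) ≤ c N (C b ∪ S) := by omega
    have hdisj : Disjoint (C b) S := by
      rw [Finset.disjoint_right]
      intro a ha haC
      obtain ⟨h6, h7⟩ := hS a ha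
      rcases mem_UU.1 h6 with h | h
      · subst h; exact h7 (hB b (hN b))
      · exact h haC
    have h6 := card_union_of_disjoint hdisj
    have h7 := c_add hN (C b)
    have h8 := c_add hN (C b ∪ S)
    have h9 : (cl N (C b ∪ S)).card ≤ (cl N (C b)).card +
        (univ.filter fun z => (∃ a ∈ S, z ∈ N a) ∧ b ∈ li N (UU C) z).card := by
      refine (card_le_card ?_).trans (card_union_le _ _)
      intro z hz
      by_cases hzC : z ∈ cl N (C b)
      · exact mem_union_left _ hzC
      · apply mem_union_right
        simp only [mem_filter, mem_univ, true_and]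
        obtain ⟨a, ha, hza⟩ := mem_cl.1 hz
        refine ⟨?_, ?_⟩
        · rcases mem_union.1 ha with ha | ha
          · exact absurd (mem_cl.2 ⟨a, ha, hza⟩) hzC
          · exact ⟨a, ha, hza⟩
        · rw [mem_li]
          intro a' ha'
          rw [mem_UU]
          right
          intro h
          exact hzC (mem_cl.2 ⟨a', h, ha'⟩)
    omega
  have hgap := gap hN hBU hR hCC
  -- the shifted pair
  have hbU : ∀ a, a ∈ UU C a := fun a => mem_UU.2 (Or.inl rfl)
  have orth' : ∀ a b, b ∈ cl N (li N (UU C) a) → a ∈ cl N (YY N (UU C) b) → a = b := by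
    intro a b hb ha
    obtain ⟨y, hy, hby⟩ := mem_cl.1 hb
    obtain ⟨z, hz, haz⟩ := mem_cl.1 ha
    have hyz : y ∈ UU C z := mem_li.1 hy z haz
    rcases mem_YY.1 hz with h | h
    · subst h
      rcases mem_UU.1 hyz with h | h
      · subst h
        rcases mem_UU.1 (mem_li.1 hy a (hN a)) with h | h
        · exact h.symm
        · exact absurd (hC _ haz) h
      · exact absurd (hC _ hby) h
    · exact absurd (mem_cl.2 ⟨y, hyz, hby⟩) h
  have hsub : ∀ z, li N B z ⊆ li N (UU C) z := fun z b hb =>
    mem_li.2 fun a ha => hBU a (mem_li.1 hb a ha)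
  refine ⟨li N B, YY N (UU C), ⟨?_, ?_, ?_⟩, ?_⟩
  · intro a
    exact mem_li.2 fun a' ha' => hB a' ha'
  · intro a
    exact mem_YY.2 (Or.inl rfl)
  · intro a b hb ha
    exact orth' a b (cl_mono (hsub a) hb) ha
  · intro B' C' hout
    refine le_trans ?_ (hmin B' C' hout)
    have D1 := dc_le (fun b => cl N (YY N (UU C) b)) (fun a => cl N (li N (UU C) a))
      (fun a b h1 h2 => orth' a b h2 h1)
    have D2 := dc_ge (fun b => YY N (UU C) b) (fun a => cl N (UU C a))
      (fun a b => by
        by_cases h : b ∈ cl N (UU C a)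
        · exact Or.inr h
        · exact Or.inl (mem_YY.2 (Or.inr h)))
      (fun a => ⟨mem_YY.2 (Or.inl rfl), subset_cl hN _ (hbU a)⟩)
    have D3 := dc_ge (fun b => cl N (C b)) (fun a => li N (UU C) a)
      (fun a b => by
        by_cases h : a ∈ cl N (C b)
        · exact Or.inl h
        · right
          refine mem_li.2 fun a' ha' => mem_UU.2 (Or.inr fun h' => h (mem_cl.2 ⟨a', h', ha'⟩)))
      (fun a => ⟨subset_cl hN _ (hC a (hN a)), hsub a (mem_li.2 fun a' ha' => hB a' ha')⟩)
    have D4 := dc_le (fun b => C b) (fun a => UU C a)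
      (fun a b h1 h2 => by
        rcases mem_UU.1 h2 with h | h
        · exact h.symm
        · exact absurd h1 h)
    have s : ∀ P : V → Finset V, ∑ a, c N (P a) + ∑ a, (P a).card = ∑ a, (cl N (P a)).card := by
      intro P
      rw [← sum_add_distrib]
      exact sum_congr rfl fun a _ => c_add hN (P a)
    have s1 := s (YY N (UU C))
    have s2 := s C
    have s3 := s (li N (UU C))
    have s4 := s (UU C)
    unfold cost
    omega

end Vale.Agent.P038.H616
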