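import Vale.Agent.P038.H616.InOut

/-!
# Seymour's second neighbourhood conjecture, part 3: arc-minimal counterexamples
-/

namespace Vale.Agent.P038.H616

open Finset

variable {V : Type*} [DecidableEq V] [Fintype V]

/-- second out-neighbourhood -/
def N2 (out : V → Finset V) (v : V) : Finset V := (out v).biUnion out \ insert v (out v)

/-- counterexamples -/
def CE (out : V → Finset V) : Prop :=
  (∀ v, v ∉ out v) ∧ (∀ u v, v ∈ out u → u ∉ out v) ∧ ∀ v, (N2 out v).card < (out v).card

/-- closed out-neighbourhood of a vertex -/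
def Nc (out : V → Finset V) (v : V) : Finset V := insert v (out v)

omit [Fintype V] in
lemma mem_Nc {out : V → Finset V} {v x : V} : x ∈ Nc out v ↔ x = v ∨ x ∈ out v := mem_insert

/-- In an arc-minimal counterexample every set has a strictly smaller second layer. -/
theorem layerG {out : V → Finset V} (hCE : CE out)
    (hmin : ∀ out' : V → Finset V, CE out' → ∑ v, (out v).card ≤ ∑ v, (out' v).card)
    (X : Finset V) (hX : cl (Nc out) X ≠ X) :
    c (Nc out) (cl (Nc out) X) < c (Nc out) X := by
  classical
  obtain ⟨hirr, has, hF⟩ := hCE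
  set N := Nc out with hNdef
  have hN : ∀ a, a ∈ N a := fun a => mem_insert_self _ _
  by_contra hcon
  push Not at hcon
  set L := cl N X \ X with hL
  have hLne : L.Nonempty := by
    rw [nonempty_iff_ne_empty]
    intro h
    exact hX (Subset.antisymm (sdiff_eq_empty_iff_subset.1 h) (subset_cl hN X))
  -- the function d
  let d : Finset V → ℤ := fun T => ((cl N T \ X).card : ℤ) - 2 * T.card
  have hdL : 0 ≤ d L := by
    have e1 : cl N (cl N X) \ cl N X = (cl N L \ X) \ L := by
      ext z
      simp only [mem_sdiff]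
      constructor
      · rintro ⟨hz, hzX⟩
        have hzX' : z ∉ X := fun h => hzX (subset_cl hN X h)
        refine ⟨⟨?_, hzX'⟩, ?_⟩
        · obtain ⟨y, hy, hzy⟩ := mem_cl.1 hz
          by_cases hyX : y ∈ X
          · exact absurd (mem_cl.2 ⟨y, hyX, hzy⟩) hzX
          · exact mem_cl.2 ⟨y, mem_sdiff.2 ⟨hy, hyX⟩, hzy⟩
        · intro h
          exact hzX (mem_sdiff.1 h).1
      · rintro ⟨⟨hz, hzX⟩, hzL⟩
        refine ⟨cl_mono sdiff_subset hz, ?_⟩
        intro h
        exact hzL (mem_sdiff.2 ⟨h, hzX⟩)
    have e2 : L ⊆ cl N L \ X := by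
      intro z hz
      exact mem_sdiff.2 ⟨subset_cl hN _ hz, (mem_sdiff.1 hz).2⟩
    have c1 := c_add hN X
    have c2 := c_add hN (cl N X)
    have c3 := card_sdiff_add_card_eq_card (subset_cl hN X)
    have c4 := card_sdiff_add_card_eq_card (subset_cl hN (cl N X))
    have c5 := card_sdiff_add_card_eq_card e2
    rw [e1] at c4
    rw [← hL] at c3
    simp only [d]
    omega
  obtain ⟨T, hT, hTmin⟩ := Finset.exists_min_image L.ssubsets d
    ⟨∅, mem_ssubsets.2 (Finset.ssubset_iff_subset_ne.2 ⟨empty_subset _, hLne.ne_empty.symm⟩)⟩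
  have hTL : T ⊂ L := mem_ssubsets.1 hT
  have hd0 : d T ≤ 0 := by
    have := hTmin ∅ (mem_ssubsets.2
      (Finset.ssubset_iff_subset_ne.2 ⟨empty_subset _, hLne.ne_empty.symm⟩))
    have h0 : d ∅ = 0 := by simp [d, cl]
    omega
  have hTall : ∀ T' ⊆ L, d T ≤ d T' := by
    intro T' hT'
    by_cases h : T' = L
    · subst h; omega
    · exact hTmin T' (mem_ssubsets.2 (Finset.ssubset_iff_subset_ne.2 ⟨hT', h⟩))
  -- Hall type inequality
  have hall : ∀ D ⊆ L \ T, 2 * D.card ≤ (cl N D \ (cl N T ∪ X)).card := by
    intro D hD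
    have h1 := hTall (T ∪ D) (union_subset hTL.1 (hD.trans sdiff_subset))
    have hdisj : Disjoint T D := by
      rw [Finset.disjoint_right]
      intro a ha haT
      exact (mem_sdiff.1 (hD ha)).2 haT
    have h2 := card_union_of_disjoint hdisj
    have h3 : (cl N (T ∪ D) \ X).card ≤ (cl N T \ X).card + (cl N D \ (cl N T ∪ X)).card := by
      refine (card_le_card ?_).trans (card_union_le _ _)
      intro z hz
      rw [cl_union] at hz
      simp only [mem_sdiff, mem_union] at hz ⊢
      tauto
    simp only [d] at h1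
    omega
  -- the smaller digraph
  let out' : V → Finset V := fun y => if y ∈ X then out y ∩ (X ∪ T) else out y
  have hsub : ∀ y, out' y ⊆ out y := by
    intro y
    by_cases hy : y ∈ X
    · simp only [out', hy, if_true]; exact inter_subset_left
    · simp only [out', hy, if_false]; exact Subset.rfl
  have hlt : ∑ v, (out' v).card < ∑ v, (out v).card := by
    obtain ⟨l, hl, hlT⟩ := Finset.exists_of_ssubset hTL
    obtain ⟨hlc, hlX⟩ := mem_sdiff.1 hl
    obtain ⟨y, hy, hly⟩ := mem_cl.1 hlc
    apply sum_lt_sum (fun v _ => card_le_card (hsub v))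
    refine ⟨y, mem_univ _, ?_⟩
    apply card_lt_card
    refine Finset.ssubset_iff_subset_ne.2 ⟨hsub y, ?_⟩
    intro h
    have hlo : l ∈ out y := by
      rcases mem_Nc.1 hly with h | h
      · subst h; exact absurd hy hlX
      · exact h
    rw [← h] at hlo
    simp only [out', hy, if_true, mem_inter, mem_union] at hlo
    tauto
  have hCE' : CE out' := by
    refine ⟨fun v hv => hirr v (hsub v hv), fun u v huv hvu =>
      has u v (hsub u huv) (hsub v hvu), ?_⟩
    intro v
    by_cases hv : v ∈ X
    · have hv' : out' v = out v ∩ (X ∪ T) := by simp only [out', hv, if_true]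
      set D := out v \ (X ∪ T) with hD
      have hDL : D ⊆ L \ T := by
        intro z hz
        simp only [hD, mem_sdiff, mem_union, not_or] at hz
        refine mem_sdiff.2 ⟨mem_sdiff.2 ⟨mem_cl.2 ⟨v, hv, mem_Nc.2 (Or.inr hz.1)⟩, hz.2.1⟩,
          hz.2.2⟩
      have hh := hall D hDL
      set E := cl N D \ (cl N T ∪ X) with hE
      have c1 : (out' v).card + D.card = (out v).card := by
        rw [hv', hD]; exact card_inter_add_card_sdiff _ _
      have c2 : N2 out' v ∪ E ⊆ N2 out v ∪ D := by
        intro z hz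
        rcases mem_union.1 hz with hz | hz
        · simp only [N2, mem_sdiff, mem_biUnion, mem_insert, not_or] at hz
          obtain ⟨⟨u, hu, hzu⟩, hzv, hzo⟩ := hz
          by_cases hzo' : z ∈ out v
          · apply mem_union_right
            rw [hD, mem_sdiff]
            refine ⟨hzo', fun h => hzo ?_⟩
            rw [hv']
            exact mem_inter.2 ⟨hzo', h⟩
          · apply mem_union_left
            simp only [N2, mem_sdiff, mem_biUnion, mem_insert, not_or]
            exact ⟨⟨u, hsub v hu, hsub u hzu⟩, hzv, hzo'⟩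
        · simp only [hE, mem_sdiff, mem_union, not_or] at hz
          obtain ⟨hzc, hzT, hzX⟩ := hz
          obtain ⟨u, hu, hzu⟩ := mem_cl.1 hzc
          have hzv : z ≠ v := fun h => hzX (h ▸ hv)
          have hzT' : z ∉ T := fun h => hzT (subset_cl hN T h)
          by_cases hzo : z ∈ out v
          · apply mem_union_right
            rw [hD, mem_sdiff, mem_union, not_or]
            exact ⟨hzo, hzX, hzT'⟩
          · rcases mem_Nc.1 hzu with h | h
            · subst h; exact mem_union_right _ hu
            · apply mem_union_left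
              simp only [N2, mem_sdiff, mem_biUnion, mem_insert, not_or]
              exact ⟨⟨u, (mem_sdiff.1 hu).1, h⟩, hzv, hzo⟩
      have c3 : Disjoint (N2 out' v) E := by
        rw [Finset.disjoint_left]
        intro z hz hzE
        simp only [hE, mem_sdiff, mem_union, not_or] at hzE
        obtain ⟨hzc, hzT, hzX⟩ := hzE
        simp only [N2, mem_sdiff, mem_biUnion, mem_insert, not_or] at hz
        obtain ⟨⟨u, hu, hzu⟩, _⟩ := hz
        have hzT' : z ∉ T := fun h => hzT (subset_cl hN T h)
        by_cases huX : u ∈ X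
        · simp only [out', huX, if_true, mem_inter, mem_union] at hzu
          tauto
        · rw [hv', mem_inter, mem_union] at hu
          have huT : u ∈ T := by tauto
          exact hzT (mem_cl.2 ⟨u, huT, mem_Nc.2 (Or.inr (hsub u hzu))⟩)
      have c4 := card_union_of_disjoint c3
      have c5 := card_le_card c2
      have c6 := card_union_le (N2 out v) D
      have := hF v
      omega
    · have hv' : out' v = out v := by simp only [out', hv, if_false]
      rw [hv']
      refine lt_of_le_of_lt (card_le_card ?_) (hF v)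
      intro z hz
      simp only [N2, mem_sdiff, mem_biUnion, mem_insert, not_or, hv'] at hz ⊢
      obtain ⟨⟨u, hu, hzu⟩, h⟩ := hz
      exact ⟨⟨u, hu, hsub u hzu⟩, h⟩
  have := hmin out' hCE'
  omega

theorem no_CE [Nonempty V] : ¬ ∃ out : V → Finset V, CE out := by
  classical
  rintro ⟨out0, h0⟩
  obtain ⟨out, hout, hmin⟩ := Finset.exists_min_image
    (univ.filter fun o : V → Finset V => CE o) (fun o => ∑ v, (o v).card)
    ⟨out0, by simp [h0]⟩
  simp only [mem_filter, mem_univ, true_and] at hout hmin
  have hG := layerG hout hmin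
  obtain ⟨hirr, has, hF⟩ := hout
  set N := Nc out with hNdef
  have hN : ∀ a, a ∈ N a := fun a => mem_insert_self _ _
  have ho : ∀ a b, b ∈ N a → a ∈ N b → a = b := by
    intro a b h1 h2
    rcases mem_Nc.1 h1 with h | h
    · exact h.symm
    · rcases mem_Nc.1 h2 with h' | h'
      · exact h'
      · exact absurd h' (has a b h)
  -- inner minimiser
  obtain ⟨⟨X, Y⟩, hXY, hXYmin⟩ := Finset.exists_min_image
    (univ.filter fun p : (V → Finset V) × (V → Finset V) => Inner N p.1 p.2)
    (fun p => cost N p.1 p.2)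
    (by
      obtain ⟨X, Y, h, _⟩ := inout hN ho
      exact ⟨(X, Y), by simpa using h⟩)
  simp only [mem_filter, mem_univ, true_and, Prod.forall] at hXY hXYmin
  have hle : cost N X Y ≤ cost N (fun a => cl N (X a)) (fun a => cl N (Y a)) := by
    obtain ⟨X', Y', h1, h2⟩ := inout hN ho
    refine (hXYmin X' Y' h1).trans (h2 _ _ ⟨?_, ?_, ?_⟩)
    · intro a z hz
      exact mem_cl.2 ⟨a, hXY.1 a, hz⟩
    · intro a z hz
      exact mem_cl.2 ⟨a, hXY.2.1 a, hz⟩
    · exact hXY.2.2
  have hterm : ∀ Z, c N (cl N Z) ≤ c N Z := by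
    intro Z
    by_cases h : cl N Z = Z
    · rw [h]
    · exact (hG Z h).le
  have hXcl : ∀ a, cl N (X a) = X a := by
    intro a
    by_contra h
    have h1 := hG (X a) h
    have h2 : ∑ a, c N (cl N (X a)) < ∑ a, c N (X a) :=
      sum_lt_sum (fun b _ => hterm (X b)) ⟨a, mem_univ _, h1⟩
    have h3 : ∑ a, c N (cl N (Y a)) ≤ ∑ a, c N (Y a) := sum_le_sum fun b _ => hterm (Y b)
    unfold cost at hle
    beta_reduce at hle
    omega
  have hYcl : ∀ a, cl N (Y a) = Y a := by
    intro a
    by_contra h
    have h1 := hG (Y a) h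
    have h2 : ∑ a, c N (cl N (Y a)) < ∑ a, c N (Y a) :=
      sum_lt_sum (fun b _ => hterm (Y b)) ⟨a, mem_univ _, h1⟩
    have h3 : ∑ a, c N (cl N (X a)) ≤ ∑ a, c N (X a) := sum_le_sum fun b _ => hterm (X b)
    unfold cost at hle
    beta_reduce at hle
    omega
  -- a minimal closed set
  obtain ⟨S, hS, hSmin⟩ := Finset.exists_min_image
    (univ.filter fun S : Finset V => S.Nonempty ∧ cl N S = S) card
    ⟨univ, by
      simp only [mem_filter, mem_univ, true_and]
      exact ⟨univ_nonempty, Subset.antisymm (subset_univ _) (subset_cl hN _)⟩⟩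
  simp only [mem_filter, mem_univ, true_and] at hS hSmin
  obtain ⟨⟨a, ha⟩, hScl⟩ := hS
  have hmeet : ∀ (Z : Finset V) (x : V), cl N Z = Z → x ∈ Z → x ∈ S → S ⊆ Z := by
    intro Z x hZ hxZ hxS
    have h1 : cl N (Z ∩ S) = Z ∩ S := by
      apply Subset.antisymm _ (subset_cl hN _)
      apply subset_inter
      · exact (cl_mono inter_subset_left).trans hZ.subset
      · exact (cl_mono inter_subset_right).trans hScl.subset
    have h2 := hSmin (Z ∩ S) ⟨⟨x, mem_inter.2 ⟨hxZ, hxS⟩⟩, h1⟩
    have h3 : Z ∩ S = S := eq_of_subset_of_card_le inter_subset_right h2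
    rw [← h3]
    exact inter_subset_left
  have hne : (out a).Nonempty := by
    rw [← card_pos]
    exact lt_of_le_of_lt (Nat.zero_le _) (hF a)
  obtain ⟨b, hb⟩ := hne
  have hbS : b ∈ S := by
    rw [← hScl]
    exact mem_cl.2 ⟨a, ha, mem_Nc.2 (Or.inr hb)⟩
  have hab : a ≠ b := fun h => hirr a (h ▸ hb)
  apply hab
  apply hXY.2.2 a b
  · rw [hXcl]
    exact hmeet (X a) a (hXcl a) (hXY.1 a) ha hbS
  · rw [hYcl]
    exact hmeet (Y b) b (hYcl b) (hXY.2.1 b) hbS ha

/-- **Seymour's second neighbourhood conjecture**, on a finite type. -/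
theorem snc (W : Type*) [Finite W] [Nonempty W] (A : W → W → Prop)
    (hA : ∀ u v, A u v → ¬ A v u) :
    ∃ v, {u | A v u}.ncard ≤ {x | x ≠ v ∧ ¬ A v x ∧ ∃ u, A v u ∧ A u x}.ncard := by
  classical
  have := Fintype.ofFinite W
  by_contra hcon
  push Not at hcon
  apply no_CE (V := W)
  refine ⟨fun v => univ.filter fun u => A v u, ?_, ?_, ?_⟩
  · intro v hv
    simp only [mem_filter, mem_univ, true_and] at hv
    exact hA v v hv hv
  · intro u v huv hvu
    simp only [mem_filter, mem_univ, true_and] at huv hvu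
    exact hA u v huv hvu
  · intro v
    have h := hcon v
    have e1 : {u | A v u} = ((univ.filter fun u => A v u : Finset W) : Set W) := by
      ext x; simp
    have e2 : {x | x ≠ v ∧ ¬ A v x ∧ ∃ u, A v u ∧ A u x} =
        ((N2 (fun v => univ.filter fun u => A v u) v : Finset W) : Set W) := by
      ext x
      simp only [N2, coe_sdiff, coe_insert, Set.mem_diff, mem_coe, mem_biUnion, mem_filter,
        mem_univ, true_and, Set.mem_insert_iff, Set.mem_setOf_eq, not_or]
      tauto
    rw [e1, e2, Set.ncard_coe_finset, Set.ncard_coe_finset] at h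
    exact h

end Vale.Agent.P038.H616
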